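import Vale.Agent.P181.TR.Defs
import Vale.Agent.P181.TL.H307.LowB

set_option autoImplicit false

/-!
# P181, TR, (R4): the lower bound from the blocks
-/

open MvPolynomial

namespace Vale.Agent.P181.TR.H307

open Vale.Agent.P181.T4 (HW)
open Vale.Agent.P181.H280 (plethMult)
open Vale.Agent.P181.SZ
open Vale.Agent.P181.TL (KK RefB)
open Vale.Agent.P181.TR
open Vale.Agent.P181.TL.H307 (sum_bal mem_PT)

theorem sum_split {k r : ℕ} (mu : Fin (k + 1 + r) → ℕ) :
    ∑ i, mu i = ∑ l, tp mu l + ∑ i, ta mu i := by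
  have h : r + (k + 1) = k + 1 + r := by omega
  rw [← Equiv.sum_comp (finCongr h) mu, Fin.sum_univ_add]
  rfl

theorem lowR (hRef : RefB) (hLift : LiftR) (hKey : KeyR) (hHead : HeadR) (hLow : LowerS)
    (hTr : TransS) : LowR := by
  intro a b k r q m Y t lam f hsum hanti ha hq hm hY hr h16 ht hf h2 h3 h4
  classical
  obtain ⟨KS, T, k1, k2, k3, k4, k5⟩ := hKey a q m Y r t ha hq hm hY hr
  set A := t / a / q with hA
  set B := q * Y * (m + r) with hB
  let s : Fin a × Fin q → ℕ := fun j => A + 2 + B + 1 + q * ((j.1 : ℕ) / m) + (j.2 : ℕ)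
  have hs : ∀ j, s j = A + 2 + B + 1 + q * ((j.1 : ℕ) / m) + (j.2 : ℕ) := fun j => rfl
  have sle : ∀ j, s j ≤ A + 2 + B + q * (a / m) + q := by
    rintro ⟨i, p⟩
    have hi : (i : ℕ) / m ≤ a / m := Nat.div_le_div_right i.2.le
    have h5 := Nat.mul_le_mul_left q hi
    have h6 := p.2
    rw [hs]
    dsimp only
    omega
  -- the contents
  have hcont : ∀ x ∈ KS, ∑ j, (x j).2 = t := by
    intro x hx
    rw [Fintype.sum_prod_type]
    calc ∑ i : Fin a, ∑ p : Fin q, (x (i, p)).2
        = ∑ i : Fin a, (t / a + if (i : ℕ) < t % a then 1 else 0) :=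
          Finset.sum_congr rfl fun i _ => k3 x hx i
      _ = t := sum_bal a t ha
  have hlab : ∀ x ∈ KS, ∑ j, ∑ l, (x j).1 l = ∑ l, T l := by
    intro x hx
    rw [Finset.sum_comm]
    exact Finset.sum_congr rfl fun l _ => k2 x hx l
  have hne : KS.Nonempty := by
    rw [← Finset.card_pos]
    exact lt_of_lt_of_le (Nat.pow_pos hY) k5
  obtain ⟨x0, hx0⟩ := hne
  have hTs : ∑ l, T l + t = ∑ j, s j := by
    rw [← hlab x0 hx0, ← hcont x0 hx0, ← Finset.sum_add_distrib]
    exact Finset.sum_congr rfl fun j _ => k1 x0 hx0 j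
  have hSle : ∑ j, s j ≤ a * q * (A + 2 + B + q * (a / m) + q) := by
    refine (Finset.sum_le_card_nsmul _ _ _ fun j _ => sle j).trans ?_
    simp [Fintype.card_prod]
  have hAt : a * q * A ≤ t := by
    rw [hA, Nat.div_div_eq_div_mul]
    exact Nat.mul_div_le t (a * q)
  have hTle : ∑ l, T l ≤ q * a * (B + q * (a / m) + q + 3) := by
    have e1 : a * q * (A + 2 + B + q * (a / m) + q) =
        a * q * A + a * q * (2 + B + q * (a / m) + q) := by ring
    have e2 : q * a * (B + q * (a / m) + q + 3) =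
        a * q * (2 + B + q * (a / m) + q) + a * q := by ring
    omega
  have hT1 : ∀ l, T l ≤ ∑ l, T l := fun l =>
    Finset.single_le_sum (fun _ _ => Nat.zero_le _) (Finset.mem_univ l)
  have h8 : 0 < 8 * (r + 1) * a := by positivity
  have hTlt : ∀ l, T l < tp (tl lam) l := fun l => by
    have := h3 l
    have := hT1 l
    omega
  have hPT : ∀ l, tp (tl lam) l - T l + T l = tp (tl lam) l := fun l => by
    have := hTlt l
    omega
  obtain ⟨H, p, g, p1, p2, p3, p4, p5⟩ := hHead a r (A + 2 + B + q * (a / m) + q)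
    (fun l => tp (tl lam) l - T l) h16 h2 (fun l => by
      have := h3 l
      have := hT1 l
      omega)
  have hLif := hLift k r (Fin a × Fin q) (Fin H) s p g (tl lam) KS
    (fun j h => lt_of_le_of_lt (sle j) (p1 h)) p3
    (fun l l' hl => hanti (by
      rw [Fin.le_def]
      simp only [Fin.val_succ]
      have : (l : ℕ) ≤ l' := hl
      omega))
    k1
    (fun x hx l => by rw [k2 x hx l, p4 l, Nat.add_comm]; exact hPT l)
    (fun x hx => by rw [hcont x hx, ht])
    (fun x hx l => by
      rw [hlab x hx]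
      have := h3 l
      omega)
    (fun x hx x' hx' j j' hss hj => by
      have e1 : (j.1 : ℕ) / m = (j'.1 : ℕ) / m ∧ j.2 = j'.2 := by
        obtain ⟨i, c⟩ := j
        obtain ⟨i', c'⟩ := j'
        rw [hs, hs] at hss
        dsimp only at hss ⊢
        have hr1 := c.2
        have hr2 := c'.2
        have h' : q * ((i : ℕ) / m) + (c : ℕ) = q * ((i' : ℕ) / m) + (c' : ℕ) := by omega
        have hq0 : 0 < q := by omega
        have e1 : (q * ((i : ℕ) / m) + (c : ℕ)) / q = (i : ℕ) / m := by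
          rw [Nat.mul_add_div hq0, Nat.div_eq_of_lt hr1, add_zero]
        have e2 : (q * ((i' : ℕ) / m) + (c' : ℕ)) / q = (i' : ℕ) / m := by
          rw [Nat.mul_add_div hq0, Nat.div_eq_of_lt hr2, add_zero]
        have e : (i : ℕ) / m = (i' : ℕ) / m := by rw [← e1, ← e2, h']
        refine ⟨e, Fin.ext ?_⟩
        rw [e] at h'
        omega
      exact k4 x hx x' hx' j j' e1.1 e1.2 hj)
  have hstep : Y ^ ((q - 1) * (r - 1) * a) *
      Module.finrank ℂ (KK (k + 1) (Fin a) f (ta (tl lam))) ≤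
      Module.finrank ℂ (PK (k + 1 + r) ((Fin a × Fin q) ⊕ Fin H) (Sum.elim s p) (tl lam)) := by
    refine le_trans (Nat.mul_le_mul_right _ k5) (le_trans ?_ hLif)
    rw [← smul_eq_mul, ← Finset.sum_const]
    refine Finset.sum_le_sum fun x hx =>
      hRef (k + 1) (Fin a) (Fin q) f (fun j => (x j).2) _ fun i => ?_
    rw [k3 x hx i, hf i]
  refine le_trans hstep ?_
  rw [hTr]
  have hpos : ∀ x : (Fin a × Fin q) ⊕ Fin H, 2 ≤ Sum.elim s p x ∧ Sum.elim s p x ≤ a := by
    rintro (j | h)
    · have h5 := sle j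
      have h6 : 2 ≤ s j := by
        rw [hs]
        exact (Nat.le_add_left 2 A).trans ((Nat.le_add_right _ _).trans
          ((Nat.le_add_right _ _).trans ((Nat.le_add_right _ _).trans (Nat.le_add_right _ _))))
      exact ⟨h6, h5.trans (by clear_value A B; generalize q * (a / m) = z at *; omega)⟩
    · have h5 := p1 h
      exact ⟨le_trans (by clear_value A B; generalize q * (a / m) = z at *; omega) h5.le, p2 h⟩
  have hfil : ((Finset.univ.val.map (Sum.elim s p)).filter (0 < ·)) =
      Finset.univ.val.map (Sum.elim s p) := by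
    refine Multiset.filter_eq_self.2 fun x hx => ?_
    obtain ⟨y, _, rfl⟩ := Multiset.mem_map.1 hx
    exact lt_of_lt_of_le (by norm_num) (hpos y).1
  rw [hfil]
  have hPsum : ∑ h, p h = ∑ l, (tp (tl lam) l - T l) := by
    rw [← Finset.sum_fiberwise Finset.univ g p]
    exact Finset.sum_congr rfl fun l _ => p4 l
  have hPT2 : ∑ l, (tp (tl lam) l - T l) + ∑ l, T l = ∑ l, tp (tl lam) l := by
    rw [← Finset.sum_add_distrib]
    exact Finset.sum_congr rfl fun l _ => hPT l
  have hw : ∑ j, s j + ∑ h, p h = ∑ i, tl lam i := by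
    rw [sum_split, ← ht, hPsum]
    omega
  refine le_trans ?_ (hLow a b (k + 1 + r) lam hsum)
  refine Finset.single_le_sum (f := fun κ => nn (k + 1 + r) (tl lam) κ)
    (fun _ _ => Nat.zero_le _) (Finset.mem_filter.2 ⟨mem_PT ?_ ?_, ?_, ?_⟩)
  · rw [← hw]
    change ∑ x, Sum.elim s p x = _
    rw [Fintype.sum_sum_type]
    rfl
  · intro x hx
    obtain ⟨y, _, rfl⟩ := Multiset.mem_map.1 hx
    exact (hpos y).1
  · intro x hx
    obtain ⟨y, _, rfl⟩ := Multiset.mem_map.1 hx
    exact (hpos y).2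
  · rw [Multiset.card_map]
    change 3 * Finset.card Finset.univ ≤ b
    rw [Finset.card_univ, Fintype.card_sum, Fintype.card_prod, Fintype.card_fin, Fintype.card_fin,
      Fintype.card_fin]
    have e1 : a * (3 * (a * q + H)) ≤ a * b := by
      have e2 : a * (3 * (a * q + H)) = 3 * q * a * a + 3 * (a * H) := by ring
      have e3 : ∑ l, (tp (tl lam) l - T l) ≤ ∑ i, tl lam i := by
        rw [← hw, ← hPsum]
        exact Nat.le_add_left _ _
      have e4 := p5
      omega
    exact Nat.le_of_mul_le_mul_left e1 ha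

end Vale.Agent.P181.TR.H307
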